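import Vale.Agent.Lib.P340.ArithBridge

/-! The Barendregt-Geuvers-Klop conjecture for all nondependent tiered pure type systems. -/

namespace Vale.Agent.Results.P340.SetOfRules

open Vale.Agent.Lib.P340 Vale.Agent.Lib.P340.Arith

universe u

/-- Let the sorts be linearly ordered, let every axiom `(s, t)` go from a sort to its immediate
successor, and let every rule `(s₁, s₂, s₃)` satisfy `s₃ = s₂ ≤ s₁`.  Then weak normalization, strong
normalization, and the absence of a copy of `λU⁻` are equivalent. -/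
theorem result {S : Type u} [LinearOrder S] (P : Spec S)
    (hA : ∀ s t, (s, t) ∈ P.axioms → s ⋖ t)
    (hR : ∀ s₁ s₂ s₃, (s₁, s₂, s₃) ∈ P.rules → s₃ = s₂ ∧ s₂ ≤ s₁) :
    (P.WeakNorm → P.StrongNorm) ∧ (P.StrongNorm → P.WeakNorm) ∧
      (P.StrongNorm ↔ ¬ ∃ a b c, {(a, b), (b, c)} ⊆ P.axioms ∧
        {(a, a, a), (b, a, a), (b, b, b), (c, b, b)} ⊆ P.rules) := by
  have hP : P.toPTS.NondependentTiered := ⟨inferInstance, hA, hR⟩
  have h1 : ¬ P.toPTS.HasUMinus → P.toPTS.StronglyNormalizing := sn_of_not_uminus hP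
  have h2 : P.toPTS.StronglyNormalizing → P.toPTS.WeaklyNormalizing := wn_of_sn
  have h3 : P.toPTS.WeaklyNormalizing → ¬ P.toPTS.HasUMinus := by
    rintro hw ⟨a, b, c, ax1, ax2, r1, r2, r3, r4⟩
    obtain ⟨M, hM⟩ := uminus_inconsistent P.toPTS ax1 ax2 r1 r2 r3 r4
    exact not_wn_of_false hP hM hw
  have h4 : P.toPTS.HasUMinus ↔ ∃ a b c, {(a, b), (b, c)} ⊆ P.axioms ∧
        {(a, a, a), (b, a, a), (b, b, b), (c, b, b)} ⊆ P.rules := by
    unfold PTS.HasUMinus
    simp only [Set.insert_subset_iff, Set.singleton_subset_iff, and_assoc]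
    exact Iff.rfl
  rw [← h4, weakNorm_iff, strongNorm_iff]
  exact ⟨fun h => h1 (h3 h), h2, fun h => h3 (h2 h), h1⟩

end Vale.Agent.Results.P340.SetOfRules
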