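import Vale.Agent.Lib.P340.Emb
import Vale.Agent.Lib.P340.Hurkens

/-! The Barendregt-Geuvers-Klop conjecture for all nondependent tiered pure type systems, with an
exact description of the normalizing ones. -/

namespace Vale.Agent.Results.P340.Tiered

open Vale.Agent.Lib.P340

universe u

/-- In a nondependent tiered system, weak and strong normalization are equivalent, and they hold
exactly when the system does not contain `λU⁻`. -/
theorem result {S : Type u} (P : PTS S) (hP : P.NondependentTiered) :
    (P.WeaklyNormalizing ↔ P.StronglyNormalizing) ∧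
      (P.StronglyNormalizing ↔ ¬ P.HasUMinus) := by
  have h1 : ¬ P.HasUMinus → P.StronglyNormalizing := sn_of_not_uminus hP
  have h2 : P.StronglyNormalizing → P.WeaklyNormalizing := wn_of_sn
  have h3 : P.WeaklyNormalizing → ¬ P.HasUMinus := by
    rintro hw ⟨a, b, c, ax1, ax2, r1, r2, r3, r4⟩
    obtain ⟨M, hM⟩ := uminus_inconsistent P ax1 ax2 r1 r2 r3 r4
    exact not_wn_of_false hP hM hw
  exact ⟨⟨fun h => h1 (h3 h), h2⟩, ⟨fun h => h3 (h2 h), h1⟩⟩

end Vale.Agent.Results.P340.Tiered
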